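import Vale.Agent.P092.QT.H156.FO

/-!
P092 (helper156), team A: the integral identity
`∫ ⟪a x ζ, b x ζ'⟫ = ip a b * ⟪ζ, ζ'⟫` for all vectors.
-/

set_option linter.all false

open scoped InnerProductSpace Topology ENNReal
open Filter ContinuousLinearMap MeasureTheory
open Vale.Agent.P092.H160

namespace Vale.Agent.P092.QT.H156.Sm

section int

variable {Γ Λ G H K : Type} [Group Γ] [Group Λ] [Group G] [Group H] [Countable Γ]
  [TopologicalSpace G] [TopologicalSpace H] [IsTopologicalGroup G] [IsTopologicalGroup H]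
  [MeasurableSpace G] [BorelSpace G] [SecondCountableTopology G]
  [NormedAddCommGroup K] [InnerProductSpace ℂ K] [CompleteSpace K]
  {ρ : Γ →* (K →L[ℂ] K)} {V : Λ →* (K →L[ℂ] K)} {ω : K} {ι : Γ →* G} {κ : Λ →* H}
  {μ : Measure G} {a b : G → K →L[ℂ] K}

/-- The fields `a` and `b` are orthogonal in the sense of (F1). -/
def Ort (V : Λ →* (K →L[ℂ] K)) (ω : K) (μ : Measure G) (a b : G → K →L[ℂ] K) : Prop :=
  ∀ v, v ≠ 1 → ip ω μ (fun x => a x * V v) b = 0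

theorem Smo.ort [μ.IsMulLeftInvariant] [T1Space H] (h : Frm ρ V ω) (hd : DenseRange κ)
    (hC : ∀ v, v ≠ 1 → ¬ IsOpen ((Subgroup.centralizer {κ v} : Subgroup H) : Set H))
    (ha : Smo ι κ ρ V ω μ a) (hb : Smo ι κ ρ V ω μ b) : Ort V ω μ a b :=
  fun v hv => ip_rV_zero h hd ha hb v (hC v hv)

theorem memLp_V [μ.IsMulLeftInvariant] (h : Frm ρ V ω) (ha : Fd ι ρ a) (ha2 : L2 ω μ a) (v : Λ) :
    MemLp (fun x => a x (V v ω)) 2 μ := L2.rm h.reg ha ha2 (h.comm v)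

theorem memLp_span [μ.IsMulLeftInvariant] (h : Frm ρ V ω) (ha : Fd ι ρ a) (ha2 : L2 ω μ a)
    {ζ : K} (hζ : ζ ∈ Submodule.span ℂ (Set.range fun v => V v ω)) :
    MemLp (fun x => a x ζ) 2 μ := by
  induction hζ using Submodule.span_induction with
  | mem x hx => obtain ⟨v, rfl⟩ := hx; exact memLp_V h ha ha2 v
  | zero => simp only [map_zero]; exact MemLp.zero'
  | add x y _ _ hx hy => simp only [map_add]; exact hx.add hy
  | smul c x _ hx => simp only [map_smul]; exact hx.const_smul c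

theorem integral_V [μ.IsMulLeftInvariant] (h : Frm ρ V ω) (ha : Fd ι ρ a) (hb : Fd ι ρ b)
    (ha2 : L2 ω μ a) (hb2 : L2 ω μ b) (ho : Ort V ω μ a b) (v w : Λ) :
    ∫ x, ⟪a x (V v ω), b x (V w ω)⟫_ℂ ∂μ = ip ω μ a b * ⟪V v ω, V w ω⟫_ℂ := by
  have e1 : ∫ x, ⟪a x (V v ω), b x (V w ω)⟫_ℂ ∂μ =
      ip ω μ (fun x => a x * V v) (fun x => b x * V w) := rfl
  have hav : Fd ι ρ (fun x => a x * V v) := ha.rm h.reg (h.comm v)
  have hav2 : L2 ω μ (fun x => a x * V v) := L2.rm h.reg ha ha2 (h.comm v)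
  have e2 := ip_rV h hav hb hav2 hb2 w⁻¹
  rw [inv_inv] at e2
  have e3 : (fun x => a x * V v * V w⁻¹) = fun x => a x * V (v * w⁻¹) := by
    funext x; rw [map_mul, mul_assoc]
  rw [e1, ← e2, e3]
  by_cases hvw : v = w
  · subst hvw
    rw [mul_inv_cancel, map_one]
    have e4 : (fun x => a x * (1 : K →L[ℂ] K)) = a := by funext x; rw [mul_one]
    rw [e4, h.inner_left, h.inv_apply, inner_self_eq_norm_sq_to_K, h.norm_omega]
    simp
  · rw [ho _ (fun h1 => hvw (mul_inv_eq_one.mp h1)), h.orthonormal.2 hvw, mul_zero]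

theorem integral_span [μ.IsMulLeftInvariant] (h : Frm ρ V ω) (ha : Fd ι ρ a) (hb : Fd ι ρ b)
    (ha2 : L2 ω μ a) (hb2 : L2 ω μ b) (ho : Ort V ω μ a b) {ζ ζ' : K}
    (hζ : ζ ∈ Submodule.span ℂ (Set.range fun v => V v ω))
    (hζ' : ζ' ∈ Submodule.span ℂ (Set.range fun v => V v ω)) :
    ∫ x, ⟪a x ζ, b x ζ'⟫_ℂ ∂μ = ip ω μ a b * ⟪ζ, ζ'⟫_ℂ := by
  induction hζ using Submodule.span_induction with
  | mem y hy =>
    obtain ⟨v, rfl⟩ := hy
    induction hζ' using Submodule.span_induction with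
    | mem y hy => obtain ⟨w, rfl⟩ := hy; exact integral_V h ha hb ha2 hb2 ho v w
    | zero => simp only [map_zero, inner_zero_right, integral_zero, mul_zero]
    | add x y hx' hy' hx hy =>
      simp only [map_add, inner_add_right, mul_add]
      rw [integral_add (integrable_inner_of_memLp (memLp_V h ha ha2 v) (memLp_span h hb hb2 hx'))
        (integrable_inner_of_memLp (memLp_V h ha ha2 v) (memLp_span h hb hb2 hy')), hx, hy]
    | smul c x _ hx =>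
      simp only [map_smul, inner_smul_right]
      rw [integral_const_mul, hx]
      ring
  | zero => simp only [map_zero, inner_zero_left, integral_zero, mul_zero]
  | add x y hx' hy' hx hy =>
    simp only [map_add, inner_add_left, mul_add]
    rw [integral_add (integrable_inner_of_memLp (memLp_span h ha ha2 hx') (memLp_span h hb hb2 hζ'))
      (integrable_inner_of_memLp (memLp_span h ha ha2 hy') (memLp_span h hb hb2 hζ')), hx, hy]
  | smul c x _ hx =>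
    simp only [map_smul, inner_smul_left]
    rw [integral_const_mul, hx]
    ring

theorem lintegral_sq_span [μ.IsMulLeftInvariant] (h : Frm ρ V ω) (hb : Fd ι ρ b)
    (hb2 : L2 ω μ b) (ho : Ort V ω μ b b) {ζ : K}
    (hζ : ζ ∈ Submodule.span ℂ (Set.range fun v => V v ω)) :
    ∫⁻ x, ‖b x ζ‖ₑ ^ 2 ∂μ = nsq ω μ b * ‖ζ‖ₑ ^ 2 := by
  have h1 := integral_span h hb hb hb2 hb2 ho hζ hζ
  have hm := memLp_span h hb hb2 hζ
  rw [ip_self hb2, integral_inner_toLp hm hm, inner_self_eq_norm_sq_to_K,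
    inner_self_eq_norm_sq_to_K] at h1
  have h2 : ‖hm.toLp _‖ ^ 2 = (nsq ω μ b).toReal * ‖ζ‖ ^ 2 := by
    apply Complex.ofReal_injective
    push_cast
    exact h1
  rw [norm_sq_toLp, integral_sq_eq hm] at h2
  have h3 : ∫⁻ x, ‖b x ζ‖ₑ ^ 2 ∂μ ≠ ∞ := (lintegral_sq_lt_top hm).ne
  have h4 : nsq ω μ b * ‖ζ‖ₑ ^ 2 ≠ ∞ := ENNReal.mul_ne_top (nsq_lt_top hb2).ne (by simp)
  rw [← ENNReal.toReal_eq_toReal_iff' h3 h4, h2, ENNReal.toReal_mul, ENNReal.toReal_pow,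
    toReal_enorm]

/-! ### the smooth fields form a `*`-algebra -/

namespace Smo

variable [μ.IsMulLeftInvariant]

theorem zero : Smo ι κ ρ V ω μ (fun _ => 0) := ⟨Fd.zero, ACont.zero, L2.zero⟩

theorem add (ha : Smo ι κ ρ V ω μ a) (hb : Smo ι κ ρ V ω μ b) :
    Smo ι κ ρ V ω μ (fun x => a x + b x) :=
  ⟨ha.toFd.add hb.toFd, ha.acont.add hb.acont, L2.add ha.l2 hb.l2⟩

theorem smul (c : ℂ) (hb : Smo ι κ ρ V ω μ b) : Smo ι κ ρ V ω μ (fun x => c • b x) :=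
  ⟨hb.toFd.smul c, hb.acont.smul c, L2.smul c hb.l2⟩

theorem neg (hb : Smo ι κ ρ V ω μ b) : Smo ι κ ρ V ω μ (fun x => - b x) :=
  ⟨hb.toFd.neg, hb.acont.neg, L2.neg hb.l2⟩

theorem sub (ha : Smo ι κ ρ V ω μ a) (hb : Smo ι κ ρ V ω μ b) :
    Smo ι κ ρ V ω μ (fun x => a x - b x) :=
  ⟨ha.toFd.sub hb.toFd, ha.acont.sub hb.acont, L2.sub ha.l2 hb.l2⟩

theorem mul (h : Frm ρ V ω) (ha : Smo ι κ ρ V ω μ a) (hb : Smo ι κ ρ V ω μ b) :
    Smo ι κ ρ V ω μ (fun x => a x * b x) :=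
  ⟨ha.toFd.mul hb.toFd, ACont.mul h ha.acont hb.acont ha.bdd hb.bdd,
    L2.mul_right h.reg ha.toFd hb.toFd ha.l2⟩

theorem adj (h : Frm ρ V ω) (hb : Smo ι κ ρ V ω μ b) :
    Smo ι κ ρ V ω μ (fun x => adjoint (b x)) :=
  ⟨hb.toFd.adj h.reg, ACont.adj h hb.acont, L2.adj h.reg hb.toFd hb.l2⟩

theorem conj (h : Frm ρ V ω) (hb : Smo ι κ ρ V ω μ b) (v : Λ) :
    Smo ι κ ρ V ω μ (fun x => V v * b x * V v⁻¹) :=
  ⟨hb.toFd.conj h v, ACont.conj h hb.acont v, L2.conj h hb.toFd hb.l2 v⟩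

theorem rt [μ.IsMulRightInvariant] (hb : Smo ι κ ρ V ω μ b) (z : G) :
    Smo ι κ ρ V ω μ (fun x => b (x * z)) :=
  ⟨hb.toFd.rt z, ACont.rt hb.acont z, L2.rt hb.toFd hb.l2 z⟩

end Smo

end int

end Vale.Agent.P092.QT.H156.Sm
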