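import Vale.Agent.P092.QT.H156.Tr

/-!
P092 (helper156), team A: automatic `L²` continuity, decay of the coefficients and the
orthogonality lemma for smooth fields, and the integral identity for all vectors.
-/

set_option linter.all false

open scoped InnerProductSpace Topology ENNReal
open Filter ContinuousLinearMap MeasureTheory
open Vale.Agent.P092.H160

namespace Vale.Agent.P092.QT.H156.Sm

section fo

variable {Γ Λ G H K : Type} [Group Γ] [Group Λ] [Group G] [Group H] [Countable Γ]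
  [TopologicalSpace G] [TopologicalSpace H] [IsTopologicalGroup G] [IsTopologicalGroup H]
  [MeasurableSpace G] [BorelSpace G] [SecondCountableTopology G]
  [NormedAddCommGroup K] [InnerProductSpace ℂ K] [CompleteSpace K]
  {ρ : Γ →* (K →L[ℂ] K)} {V : Λ →* (K →L[ℂ] K)} {ω : K} {ι : Γ →* G} {κ : Λ →* H}
  {μ : Measure G} {a b : G → K →L[ℂ] K}

/-- moving an element of the commutant to the other side -/
theorem ip_rm [μ.IsMulLeftInvariant] (h : TRep ρ ω) (ha : Fd ι ρ a) (hb : Fd ι ρ b)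
    (ha2 : L2 ω μ a) (hb2 : L2 ω μ b) {m : K →L[ℂ] K} (hm : Cmm ρ m) :
    ip ω μ (fun x => a x * m) b = ip ω μ a (fun x => b x * adjoint m) := by
  have hm' : Cmm ρ (adjoint m) := h.cmm_adjoint hm
  rw [← ip_adj h (ha.rm h hm) hb (L2.rm h ha ha2 hm) hb2,
    ← ip_adj h ha (hb.rm h hm') ha2 (L2.rm h hb hb2 hm')]
  unfold ip
  refine integral_congr_ae (Eventually.of_forall fun x => ?_)
  have e1 : adjoint (a x * m) = adjoint m * adjoint (a x) := by
    change star (a x * m) = _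
    rw [star_mul]; rfl
  have e2 : adjoint (b x * adjoint m) = m * adjoint (b x) := by
    change star (b x * star m) = _
    rw [star_mul, star_star]; rfl
  simp only [e1, e2, mul_ap]
  rw [adjoint_inner_right]

theorem ip_rV [μ.IsMulLeftInvariant] (h : Frm ρ V ω) (ha : Fd ι ρ a) (hb : Fd ι ρ b)
    (ha2 : L2 ω μ a) (hb2 : L2 ω μ b) (v : Λ) :
    ip ω μ (fun x => a x * V v) b = ip ω μ a (fun x => b x * V v⁻¹) := by
  rw [ip_rm h.reg ha hb ha2 hb2 (h.comm v), h.adj]

/-- moving a bounded field to the other side -/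
theorem ip_mul_right [μ.IsMulLeftInvariant] {c : G → K →L[ℂ] K} (h : TRep ρ ω) (ha : Fd ι ρ a)
    (hb : Fd ι ρ b) (hc : Fd ι ρ c) (ha2 : L2 ω μ a) (hb2 : L2 ω μ b) :
    ip ω μ (fun x => a x * c x) b = ip ω μ a (fun x => b x * adjoint (c x)) := by
  have hc' := hc.adj h
  rw [← ip_adj h (ha.mul hc) hb (L2.mul_right h ha hc ha2) hb2,
    ← ip_adj h ha (hb.mul hc') ha2 (L2.mul_right h hb hc' hb2)]
  unfold ip
  refine integral_congr_ae (Eventually.of_forall fun x => ?_)
  have e1 : adjoint (a x * c x) = adjoint (c x) * adjoint (a x) := by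
    change star (a x * c x) = _
    rw [star_mul]; rfl
  have e2 : adjoint (b x * adjoint (c x)) = c x * adjoint (b x) := by
    change star (b x * star (c x)) = _
    rw [star_mul, star_star]; rfl
  simp only [e1, e2, mul_ap]
  rw [adjoint_inner_right]

theorem ip_lV (h : Frm ρ V ω) (v : Λ) :
    ip ω μ (fun x => V v * a x) (fun x => V v * b x) = ip ω μ a b := by
  unfold ip
  refine integral_congr_ae (Eventually.of_forall fun x => ?_)
  simp only [mul_ap]
  rw [h.inner_left, h.inv_apply]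

/-- The inner product is invariant under the conjugation by `Λ`. -/
theorem ip_conj [μ.IsMulLeftInvariant] (h : Frm ρ V ω) (ha : Fd ι ρ a) (hb : Fd ι ρ b)
    (ha2 : L2 ω μ a) (hb2 : L2 ω μ b) (v : Λ) :
    ip ω μ (fun x => V v * a x * V v⁻¹) (fun x => V v * b x * V v⁻¹) = ip ω μ a b := by
  have hb' : Fd ι ρ (fun x => V v * b x * V v⁻¹) := hb.conj h v
  have hb2' : L2 ω μ (fun x => V v * b x * V v⁻¹) := L2.conj h hb hb2 v
  rw [ip_rV h (ha.lm h.reg (h.comm v)) hb' (L2.lm ha ha2 _) hb2' v⁻¹, inv_inv]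
  have e : (fun x => V v * b x * V v⁻¹ * V v) = fun x => V v * b x := by
    funext x
    rw [mul_assoc _ (V v⁻¹), h.inv_mul, mul_one]
  rw [e, ip_lV h]

theorem ip_rt [μ.IsMulRightInvariant] (a b : G → K →L[ℂ] K) (z : G) :
    ip ω μ (fun x => a (x * z)) (fun x => b (x * z)) = ip ω μ a b :=
  integral_mul_right_eq_self (fun x => ⟪a x ω, b x ω⟫_ℂ) z

/-- Automatic `L²` continuity: a field which is uniformly close to `b` and not larger than `b` in
`L²` is close to `b` in `L²`. -/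
theorem nsq_sub_small (hbc : Continuous b) (hb : L2 ω μ b) (ε : ℝ) (hε : 0 < ε) :
    ∃ δ > 0, ∀ c : G → K →L[ℂ] K, L2 ω μ c → (nsq ω μ c).toReal ≤ (nsq ω μ b).toReal →
      (∀ x, ‖c x - b x‖ ≤ δ) → (nsq ω μ (fun x => c x - b x)).toReal ≤ ε := by
  set N : ℝ := (nsq ω μ b).toReal with hN
  have hN0 : 0 ≤ N := ENNReal.toReal_nonneg
  set f : G → K := fun x => b x ω with hf
  set η : ℝ := ε / (8 * (Real.sqrt N + 1)) with hη
  have hs0 : 0 ≤ Real.sqrt N := Real.sqrt_nonneg N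
  have hη0 : 0 < η := by positivity
  obtain ⟨s, hsm, hs, hse⟩ := hb.exists_eLpNorm_indicator_compl_lt ENNReal.ofNat_ne_top
    (ε := ENNReal.ofReal η) (by simpa using hη0)
  have hf1 : MemLp (s.indicator f) 2 μ := hb.indicator hsm
  have hf2 : MemLp (sᶜ.indicator f) 2 μ := hb.indicator hsm.compl
  have hfint : IntegrableOn f s μ := by
    have : IsFiniteMeasure (μ.restrict s) := ⟨by simpa using hs⟩
    exact (hb.restrict s).integrable (by norm_num)
  set I : ℝ := ∫ x in s, ‖f x‖ * ‖ω‖ ∂μ with hI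
  have hI0 : 0 ≤ I := integral_nonneg fun x => by positivity
  set δ : ℝ := ε / (4 * (I + 1)) with hδ
  have hδ0 : 0 < δ := by positivity
  refine ⟨δ, hδ0, fun c hc hcN hcb => ?_⟩
  have hd : L2 ω μ (fun x => c x - b x) := hc.sub hb
  have hdn : ‖MemLp.toLp _ hd‖ ≤ 2 * Real.sqrt N := by
    have e1 : MemLp.toLp _ hd = MemLp.toLp _ hc - MemLp.toLp _ hb := MemLp.toLp_sub hc hb
    have e2 : ‖MemLp.toLp _ hc‖ ≤ Real.sqrt N := by
      refine Real.le_sqrt_of_sq_le ?_
      rw [norm_toLp_sq]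
      exact hcN
    have e3 : ‖MemLp.toLp _ hb‖ ≤ Real.sqrt N := by
      refine Real.le_sqrt_of_sq_le ?_
      rw [norm_toLp_sq]
    rw [e1]
    refine (norm_sub_le _ _).trans ?_
    linarith
  -- the inner product of `c - b` with `b`
  have k1 : ‖ip ω μ (fun x => c x - b x) b‖ ≤ ε / 2 := by
    have e1 : ip ω μ (fun x => c x - b x) b =
        (∫ x, ⟪(c x - b x) ω, s.indicator f x⟫_ℂ ∂μ) +
          ∫ x, ⟪(c x - b x) ω, sᶜ.indicator f x⟫_ℂ ∂μ := by
      unfold ip
      rw [← integral_add (integrable_inner_of_memLp hd hf1) (integrable_inner_of_memLp hd hf2)]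
      refine integral_congr_ae (Eventually.of_forall fun x => ?_)
      have e := Set.indicator_self_add_compl_apply s f x
      simp only [← inner_add_right, e]
      rfl
    have e2 : ‖∫ x, ⟪(c x - b x) ω, sᶜ.indicator f x⟫_ℂ ∂μ‖ ≤ ε / 4 := by
      refine (norm_integral_inner_le hd hf2).trans ?_
      have e4 : ‖MemLp.toLp _ hf2‖ ≤ η := by
        rw [Lp.norm_toLp]
        exact ENNReal.toReal_le_of_le_ofReal hη0.le hse.le
      calc ‖MemLp.toLp _ hd‖ * ‖MemLp.toLp _ hf2‖ ≤ (2 * Real.sqrt N) * η := by gcongr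
        _ ≤ (2 * (Real.sqrt N + 1)) * η := by gcongr; linarith
        _ = ε / 4 := by rw [hη]; field_simp; ring
    have e3 : ‖∫ x, ⟪(c x - b x) ω, s.indicator f x⟫_ℂ ∂μ‖ ≤ ε / 4 := by
      have e5 : ∫ x, ⟪(c x - b x) ω, s.indicator f x⟫_ℂ ∂μ =
          ∫ x in s, ⟪(c x - b x) ω, f x⟫_ℂ ∂μ := by
        rw [← integral_indicator hsm]
        refine integral_congr_ae (Eventually.of_forall fun x => ?_)
        by_cases hx : x ∈ s
        · simp only [Set.indicator_of_mem hx]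
        · simp only [Set.indicator_of_notMem hx, inner_zero_right]
      rw [e5]
      calc ‖∫ x in s, ⟪(c x - b x) ω, f x⟫_ℂ ∂μ‖ ≤ ∫ x in s, δ * (‖f x‖ * ‖ω‖) ∂μ := by
            refine norm_integral_le_of_norm_le ((hfint.norm.mul_const _).const_mul _)
              (Eventually.of_forall fun x => ?_)
            calc ‖⟪(c x - b x) ω, f x⟫_ℂ‖ ≤ ‖(c x - b x) ω‖ * ‖f x‖ := norm_inner_le_norm _ _
              _ ≤ (δ * ‖ω‖) * ‖f x‖ := by
                  gcongr
                  exact (le_opNorm _ _).trans (by gcongr; exact hcb x)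
              _ = δ * (‖f x‖ * ‖ω‖) := by ring
        _ = δ * I := by rw [integral_const_mul]
        _ ≤ δ * (I + 1) := by gcongr; linarith
        _ = ε / 4 := by rw [hδ]; field_simp
    rw [e1]
    refine (norm_add_le _ _).trans ?_
    linarith
  -- expand
  have k2 : ((nsq ω μ (fun x => c x - b x)).toReal : ℂ) =
      ((nsq ω μ c).toReal : ℂ) - (N : ℂ) - ip ω μ b (fun x => c x - b x) -
        ip ω μ (fun x => c x - b x) b := by
    rw [← ip_self hd, ← ip_self hc, hN, ← ip_self hb, ← ip_conj_symm (a := fun x => c x - b x),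
      ip_sub_right hd hc hb, ← ip_conj_symm (a := c), ip_sub_right hc hc hb,
      ← ip_conj_symm (a := b) (b := fun x => c x - b x), ip_sub_right hb hc hb]
    simp only [map_sub, ip_conj_symm]
    ring
  have k3 : (nsq ω μ (fun x => c x - b x)).toReal =
      (nsq ω μ c).toReal - N - (ip ω μ b (fun x => c x - b x)).re -
        (ip ω μ (fun x => c x - b x) b).re := by
    have := congrArg Complex.re k2
    simpa using this
  have k4 : ‖ip ω μ b (fun x => c x - b x)‖ ≤ ε / 2 := by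
    rw [← ip_conj_symm, RCLike.norm_conj]; exact k1
  have k5 := (Complex.abs_re_le_norm (ip ω μ b (fun x => c x - b x))).trans k4
  have k6 := (Complex.abs_re_le_norm (ip ω μ (fun x => c x - b x) b)).trans k1
  rw [k3]
  have := abs_le.1 k5
  have := abs_le.1 k6
  linarith

/-- The conjugation by `Λ` is `L²` continuous on smooth fields. -/
theorem conj_cont [μ.IsMulLeftInvariant] (h : Frm ρ V ω) (hb : Smo ι κ ρ V ω μ b) (ε : ℝ)
    (hε : 0 < ε) : ∃ U ∈ 𝓝 (1 : H), ∀ v, κ v ∈ U →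
      (nsq ω μ (fun x => V v * b x * V v⁻¹ - b x)).toReal ≤ ε := by
  obtain ⟨δ, hδ, h1⟩ := nsq_sub_small hb.toFd.continuous hb.l2 ε hε
  obtain ⟨U, hU, h2⟩ := hb.acont δ hδ
  refine ⟨U, hU, fun v hv => h1 _ (L2.conj h hb.toFd hb.l2 v) ?_ (h2 v hv)⟩
  rw [nsq_conj h hb.toFd]

/-- Right translation is `L²` continuous. -/
theorem rt_cont [μ.IsMulRightInvariant] (hb : Fd ι ρ b) (hb2 : L2 ω μ b) (ε : ℝ) (hε : 0 < ε) :
    ∃ U ∈ 𝓝 (1 : G), ∀ z ∈ U, (nsq ω μ (fun x => b (x * z) - b x)).toReal ≤ ε := by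
  obtain ⟨δ, hδ, h1⟩ := nsq_sub_small hb.continuous hb2 ε hε
  obtain ⟨U, hU, h2⟩ := hb.rcont δ hδ
  refine ⟨U, hU, fun z hz => h1 _ (L2.rt hb hb2 z) ?_ (h2 z hz)⟩
  rw [nsq_rt]

/-- The coefficients tend to zero along `Λ`. -/
theorem ip_rV_tendsto [μ.IsMulLeftInvariant] (h : Frm ρ V ω) (ha : Fd ι ρ a) (hb : Fd ι ρ b)
    (ha2 : L2 ω μ a) (hb2 : L2 ω μ b) :
    Tendsto (fun v => ip ω μ (fun x => a x * V v) b) cofinite (𝓝 0) := by
  rw [Metric.tendsto_nhds]
  intro ε hε
  set N : ℝ := (nsq ω μ a).toReal with hN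
  have hN0 : 0 ≤ N := ENNReal.toReal_nonneg
  have hs0 : 0 ≤ Real.sqrt N := Real.sqrt_nonneg N
  set f : G → K := fun x => b x ω with hf
  set η : ℝ := ε / (4 * (Real.sqrt N + 1)) with hη
  have hη0 : 0 < η := by positivity
  obtain ⟨s, hsm, hs, hse⟩ := hb2.exists_eLpNorm_indicator_compl_lt ENNReal.ofNat_ne_top
    (ε := ENNReal.ofReal η) (by simpa using hη0)
  have hf1 : MemLp (s.indicator f) 2 μ := hb2.indicator hsm
  have hf2 : MemLp (sᶜ.indicator f) 2 μ := hb2.indicator hsm.compl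
  have hfint : IntegrableOn (fun x => adjoint (a x) (f x)) s μ := by
    have : IsFiniteMeasure (μ.restrict s) := ⟨by simpa using hs⟩
    have h1 : MemLp (fun x => adjoint (a x) (f x)) 2 (μ.restrict s) :=
      (L2.mul_left (ha.adj h.reg).continuous hb.continuous (ha.adj h.reg).bdd hb2).restrict s
    exact h1.integrable (by norm_num)
  set ζ : K := ∫ x in s, adjoint (a x) (f x) ∂μ with hζ
  have h2 := h.tendsto_inner ζ
  rw [Metric.tendsto_nhds] at h2
  filter_upwards [h2 (ε / 2) (by positivity)] with v hv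
  rw [dist_zero_right] at hv ⊢
  have hav := L2.rm h.reg ha ha2 (h.comm v)
  have hav' : MemLp (fun x => (a x * V v) ω) 2 μ := hav
  have e1 : ip ω μ (fun x => a x * V v) b =
      (∫ x, ⟪(a x * V v) ω, s.indicator f x⟫_ℂ ∂μ) +
        ∫ x, ⟪(a x * V v) ω, sᶜ.indicator f x⟫_ℂ ∂μ := by
    unfold ip
    rw [← integral_add (integrable_inner_of_memLp hav' hf1) (integrable_inner_of_memLp hav' hf2)]
    refine integral_congr_ae (Eventually.of_forall fun x => ?_)
    have e := Set.indicator_self_add_compl_apply s f x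
    simp only [← inner_add_right, e]
    rfl
  have e2 : ‖∫ x, ⟪(a x * V v) ω, sᶜ.indicator f x⟫_ℂ ∂μ‖ ≤ ε / 4 := by
    refine (norm_integral_inner_le hav' hf2).trans ?_
    have e4 : ‖MemLp.toLp _ hf2‖ ≤ η := by
      rw [Lp.norm_toLp]
      exact ENNReal.toReal_le_of_le_ofReal hη0.le hse.le
    have e5 : ‖MemLp.toLp _ hav'‖ ≤ Real.sqrt N := by
      refine Real.le_sqrt_of_sq_le ?_
      have := norm_toLp_sq (b := fun x => a x * V v) hav
      rw [this, nsq_rV h ha]
    calc ‖MemLp.toLp _ hav'‖ * ‖MemLp.toLp _ hf2‖ ≤ Real.sqrt N * η := by gcongr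
      _ ≤ (Real.sqrt N + 1) * η := by gcongr; linarith
      _ = ε / 4 := by rw [hη]; field_simp
  have e3 : ∫ x, ⟪(a x * V v) ω, s.indicator f x⟫_ℂ ∂μ = ⟪V v ω, ζ⟫_ℂ := by
    have e5 : ∫ x, ⟪(a x * V v) ω, s.indicator f x⟫_ℂ ∂μ =
        ∫ x in s, ⟪V v ω, adjoint (a x) (f x)⟫_ℂ ∂μ := by
      rw [← integral_indicator hsm]
      refine integral_congr_ae (Eventually.of_forall fun x => ?_)
      by_cases hx : x ∈ s
      · simp only [Set.indicator_of_mem hx]
        rw [mul_ap, adjoint_inner_right]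
      · simp only [Set.indicator_of_notMem hx, inner_zero_right]
    rw [e5, hζ]
    exact integral_inner hfint _
  rw [e1, e3]
  refine (norm_add_le _ _).trans_lt ?_
  linarith

/-- The orthogonality lemma (F1). -/
theorem ip_rV_zero [μ.IsMulLeftInvariant] [T1Space H] (h : Frm ρ V ω) (hd : DenseRange κ)
    (ha : Smo ι κ ρ V ω μ a) (hb : Smo ι κ ρ V ω μ b) (v : Λ)
    (hv : ¬ IsOpen ((Subgroup.centralizer {κ v} : Subgroup H) : Set H)) :
    ip ω μ (fun x => a x * V v) b = 0 := by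
  have haF := ha.toFd
  have hbF := hb.toFd
  refine H35.orb_zero κ hd (fun v => ip ω μ (fun x => a x * V v) b)
    (ip_rV_tendsto h haF hbF ha.l2 hb.l2) v (fun ε hε => ?_) hv
  set A : ℝ := Real.sqrt (nsq ω μ a).toReal with hA
  set B : ℝ := Real.sqrt (nsq ω μ b).toReal with hB
  have hA0 : 0 ≤ A := Real.sqrt_nonneg _
  have hB0 : 0 ≤ B := Real.sqrt_nonneg _
  set δ : ℝ := ε / (4 * (A + B + 1)) with hδ
  have hδ0 : 0 < δ := by positivity
  obtain ⟨U, hU, hUa⟩ := conj_cont h ha (δ ^ 2) (by positivity)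
  obtain ⟨W, hW, hWb⟩ := conj_cont h hb (δ ^ 2) (by positivity)
  have hinv : Tendsto (fun y : H => y⁻¹) (𝓝 1) (𝓝 1) := by
    have := (continuous_inv (G := H)).tendsto 1
    rwa [inv_one] at this
  refine ⟨_, hinv (inter_mem hU hW), fun w hw => ?_⟩
  have hw' : κ w⁻¹ ∈ U ∩ W := by rw [map_inv]; exact hw
  have ka := hUa w⁻¹ hw'.1
  have kb := hWb w⁻¹ hw'.2
  rw [inv_inv] at ka kb
  -- the conjugated fields
  set a' : G → K →L[ℂ] K := fun x => V w⁻¹ * a x * V w with ha'
  set b' : G → K →L[ℂ] K := fun x => V w⁻¹ * b x * V w with hb'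
  have hea : (fun x => V w⁻¹ * a x * V w⁻¹⁻¹) = a' := by rw [inv_inv]
  have heb : (fun x => V w⁻¹ * b x * V w⁻¹⁻¹) = b' := by rw [inv_inv]
  have haF' : Fd ι ρ a' := by rw [← hea]; exact haF.conj h w⁻¹
  have hbF' : Fd ι ρ b' := by rw [← heb]; exact hbF.conj h w⁻¹
  have ha2' : L2 ω μ a' := by rw [← hea]; exact L2.conj h haF ha.l2 w⁻¹
  have hb2' : L2 ω μ b' := by rw [← heb]; exact L2.conj h hbF hb.l2 w⁻¹
  -- the conjugation identity
  have key : ip ω μ (fun x => a x * V (w * v * w⁻¹)) b = ip ω μ (fun x => a' x * V v) b' := by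
    have e1 : (fun x => a x * V (w * v * w⁻¹)) = fun x => (a x * V w * V v) * V w⁻¹ := by
      funext x
      rw [map_mul, map_mul]
      simp only [mul_assoc]
    have h1 : Fd ι ρ (fun x => a x * V w * V v) :=
      (haF.rm h.reg (h.comm w)).rm h.reg (h.comm v)
    have h2 : L2 ω μ (fun x => a x * V w * V v) :=
      L2.rm h.reg (haF.rm h.reg (h.comm w)) (L2.rm h.reg haF ha.l2 (h.comm w)) (h.comm v)
    rw [e1, ip_rV h h1 hbF h2 hb.l2, inv_inv, ← ip_lV h w⁻¹]
    simp only [ha', hb', mul_assoc]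
  have h3 : ip ω μ (fun x => a' x * V v) b' - ip ω μ (fun x => a x * V v) b =
      ip ω μ (fun x => (a' x - a x) * V v) b' + ip ω μ (fun x => a x * V v) (fun x => b' x - b x) := by
    have f1 : L2 ω μ (fun x => a' x * V v) := L2.rm h.reg haF' ha2' (h.comm v)
    have f2 : L2 ω μ (fun x => a x * V v) := L2.rm h.reg haF ha.l2 (h.comm v)
    have f3 : L2 ω μ (fun x => (a' x - a x) * V v) :=
      L2.rm h.reg (haF'.sub haF) (ha2'.sub ha.l2) (h.comm v)
    rw [ip_sub_right f2 hb2' hb.l2]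
    have e : ip ω μ (fun x => (a' x - a x) * V v) b' =
        ip ω μ (fun x => a' x * V v) b' - ip ω μ (fun x => a x * V v) b' := by
      have e4 : (fun x => (a' x - a x) * V v) = fun x => a' x * V v - a x * V v := by
        funext x; rw [sub_mul]
      rw [e4, ← ip_conj_symm, ip_sub_right hb2' f1 f2, map_sub, ip_conj_symm, ip_conj_symm]
    rw [e]
    ring
  have sq_le : ∀ x y z : ℝ, 0 ≤ x → 0 ≤ y → 0 ≤ z → x ^ 2 ≤ y * z → x ≤ Real.sqrt y * Real.sqrt z := by
    intro x y z hx hy hz hxyz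
    rw [← Real.sqrt_mul hy]
    exact Real.le_sqrt_of_sq_le hxyz
  have k1 : ‖ip ω μ (fun x => (a' x - a x) * V v) b'‖ ≤ δ * B := by
    have f3 : L2 ω μ (fun x => (a' x - a x) * V v) :=
      L2.rm h.reg (haF'.sub haF) (ha2'.sub ha.l2) (h.comm v)
    have g1 := sq_le _ _ _ (norm_nonneg _) ENNReal.toReal_nonneg ENNReal.toReal_nonneg
      (norm_ip_le f3 hb2')
    have g2 : nsq ω μ (fun x => (a' x - a x) * V v) = nsq ω μ (fun x => a' x - a x) :=
      nsq_rV h (haF'.sub haF) v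
    have g3 : nsq ω μ b' = nsq ω μ b := by rw [← heb]; exact nsq_conj h hbF w⁻¹
    rw [g2, g3] at g1
    refine g1.trans ?_
    gcongr
    exact Real.sqrt_le_iff.2 ⟨hδ0.le, ka⟩
  have k2 : ‖ip ω μ (fun x => a x * V v) (fun x => b' x - b x)‖ ≤ A * δ := by
    have f2 : L2 ω μ (fun x => a x * V v) := L2.rm h.reg haF ha.l2 (h.comm v)
    have g1 := sq_le _ _ _ (norm_nonneg _) ENNReal.toReal_nonneg ENNReal.toReal_nonneg
      (norm_ip_le f2 (hb2'.sub hb.l2))
    rw [nsq_rV h haF] at g1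
    refine g1.trans ?_
    gcongr
    exact Real.sqrt_le_iff.2 ⟨hδ0.le, kb⟩
  rw [key, h3]
  refine (norm_add_le _ _).trans_lt ?_
  calc ‖ip ω μ (fun x => (a' x - a x) * V v) b'‖ +
        ‖ip ω μ (fun x => a x * V v) (fun x => b' x - b x)‖ ≤ δ * B + A * δ := add_le_add k1 k2
    _ ≤ δ * (A + B + 1) := by nlinarith
    _ = ε / 4 := by rw [hδ]; field_simp
    _ < ε := by linarith

end fo

end Vale.Agent.P092.QT.H156.Sm
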