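import Vale.Agent.P092.QT.Rep
import Vale.Agent.P092.H35.Orb

/-!
P092 (helper156), team A: the smooth equivariant fields `b : G → B(K)` and their algebra.
`ρ` is the (right regular) representation of `Γ` with trace vector `ω`, `V` the unitaries of `Λ`
in the commutant of `ρ`, `ι : Γ →* G` and `κ : Λ →* H` the projections to one factor.
-/

set_option linter.all false

open scoped InnerProductSpace Topology ENNReal
open Filter ContinuousLinearMap MeasureTheory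
open Vale.Agent.P092.H160

namespace Vale.Agent.P092.QT.H156.Sm

section defs

variable {Γ Λ G H K : Type} [Group Γ] [Group Λ] [Group G] [Group H]
  [TopologicalSpace G] [TopologicalSpace H] [MeasurableSpace G]
  [NormedAddCommGroup K] [InnerProductSpace ℂ K] [CompleteSpace K]

/-- The frame: `ρ` is a regular representation with trace vector `ω`; the unitaries `V v` commute
with `ρ` and the vectors `V v ω` are orthonormal. -/
structure Frm (ρ : Γ →* (K →L[ℂ] K)) (V : Λ →* (K →L[ℂ] K)) (ω : K) : Prop where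
  reg : TRep ρ ω
  adj : ∀ v, adjoint (V v) = V v⁻¹
  comm : ∀ v, Cmm ρ (V v)
  ort : ∀ v, v ≠ 1 → ⟪ω, V v ω⟫_ℂ = 0

/-- Right uniformly continuous bounded equivariant fields. -/
structure Fd (ι : Γ →* G) (ρ : Γ →* (K →L[ℂ] K)) (b : G → K →L[ℂ] K) : Prop where
  equiv : ∀ γ x, b (ι γ * x) = ρ γ * b x * ρ γ⁻¹
  bdd : ∃ C, ∀ x, ‖b x‖ ≤ C
  rcont : ∀ ε > 0, ∃ U ∈ 𝓝 (1 : G), ∀ y ∈ U, ∀ x, ‖b (x * y) - b x‖ ≤ ε

/-- Continuity for the conjugation by `Λ`. -/
def ACont (κ : Λ →* H) (V : Λ →* (K →L[ℂ] K)) (b : G → K →L[ℂ] K) : Prop :=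
  ∀ ε > 0, ∃ U ∈ 𝓝 (1 : H), ∀ v, κ v ∈ U → ∀ x, ‖V v * b x * V v⁻¹ - b x‖ ≤ ε

/-- Square integrable. -/
abbrev L2 (ω : K) (μ : Measure G) (b : G → K →L[ℂ] K) : Prop := MemLp (fun x => b x ω) 2 μ

/-- The smooth fields. -/
structure Smo (ι : Γ →* G) (κ : Λ →* H) (ρ : Γ →* (K →L[ℂ] K)) (V : Λ →* (K →L[ℂ] K)) (ω : K)
    (μ : Measure G) (b : G → K →L[ℂ] K) : Prop extends Fd ι ρ b where
  acont : ACont κ V b
  l2 : L2 ω μ b

/-- The inner product of fields. -/
noncomputable def ip (ω : K) (μ : Measure G) (a b : G → K →L[ℂ] K) : ℂ :=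
  ∫ x, ⟪a x ω, b x ω⟫_ℂ ∂μ

/-- The square of the two norm. -/
noncomputable def nsq (ω : K) (μ : Measure G) (b : G → K →L[ℂ] K) : ℝ≥0∞ :=
  ∫⁻ x, ‖b x ω‖ₑ ^ 2 ∂μ

end defs

section frm

variable {Γ Λ K : Type} [Group Γ] [Group Λ]
  [NormedAddCommGroup K] [InnerProductSpace ℂ K] [CompleteSpace K]
  {ρ : Γ →* (K →L[ℂ] K)} {V : Λ →* (K →L[ℂ] K)} {ω : K}

namespace Frm

variable (h : Frm ρ V ω)

include h

theorem inv_apply (v : Λ) (u : K) : V v⁻¹ (V v u) = u := by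
  rw [← mul_ap, ← map_mul, inv_mul_cancel, map_one]; rfl

theorem apply_inv (v : Λ) (u : K) : V v (V v⁻¹ u) = u := by
  rw [← mul_ap, ← map_mul, mul_inv_cancel, map_one]; rfl

theorem inner_left (v : Λ) (u w : K) : ⟪V v u, w⟫_ℂ = ⟪u, V v⁻¹ w⟫_ℂ := by
  rw [← h.adj, adjoint_inner_right]

theorem norm_map (v : Λ) (u : K) : ‖V v u‖ = ‖u‖ := by
  have h1 : ⟪V v u, V v u⟫_ℂ = ⟪u, u⟫_ℂ := by rw [h.inner_left, h.inv_apply]
  rw [inner_self_eq_norm_sq_to_K, inner_self_eq_norm_sq_to_K] at h1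
  have h2 : ‖V v u‖ ^ 2 = ‖u‖ ^ 2 := by exact_mod_cast h1
  exact (pow_left_inj₀ (norm_nonneg _) (norm_nonneg _) two_ne_zero).mp h2

theorem norm_le (v : Λ) : ‖V v‖ ≤ 1 :=
  ContinuousLinearMap.opNorm_le_bound _ zero_le_one fun u => by rw [h.norm_map, one_mul]

theorem norm_omega : ‖ω‖ = 1 := h.reg.norm_one

theorem orthonormal : Orthonormal ℂ (fun v => V v ω) := by
  refine ⟨fun v => by rw [h.norm_map, h.norm_omega], fun v w hne => ?_⟩
  change ⟪V v ω, V w ω⟫_ℂ = 0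
  rw [h.inner_left, ← mul_ap, ← map_mul]
  exact h.ort _ fun h1 => hne (inv_mul_eq_one.mp h1)

/-- The coefficients in the orthonormal family tend to zero. -/
theorem tendsto_inner (u : K) : Tendsto (fun v => ⟪V v ω, u⟫_ℂ) cofinite (𝓝 0) := by
  have h1 : Summable fun v => ‖⟪V v ω, u⟫_ℂ‖ ^ 2 := h.orthonormal.inner_products_summable u
  have h2 := h1.tendsto_cofinite_zero
  rw [tendsto_zero_iff_norm_tendsto_zero]
  have h3 := (Real.continuous_sqrt.tendsto 0).comp h2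
  rw [Real.sqrt_zero] at h3
  refine h3.congr fun v => ?_
  simp [Real.sqrt_sq (norm_nonneg _)]

theorem mul_inv (v : Λ) : V v * V v⁻¹ = 1 := by rw [← map_mul, mul_inv_cancel, map_one]

theorem inv_mul (v : Λ) : V v⁻¹ * V v = 1 := by rw [← map_mul, inv_mul_cancel, map_one]

end Frm

end frm

section field

variable {Γ Λ G H K : Type} [Group Γ] [Group Λ] [Group G] [Group H]
  [TopologicalSpace G] [TopologicalSpace H] [IsTopologicalGroup G] [IsTopologicalGroup H]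
  [NormedAddCommGroup K] [InnerProductSpace ℂ K] [CompleteSpace K]
  {ρ : Γ →* (K →L[ℂ] K)} {V : Λ →* (K →L[ℂ] K)} {ω : K} {ι : Γ →* G} {κ : Λ →* H}
  {a b : G → K →L[ℂ] K}

theorem rho_norm_le (h : TRep ρ ω) (γ : Γ) : ‖ρ γ‖ ≤ 1 :=
  ContinuousLinearMap.opNorm_le_bound _ zero_le_one fun u => by rw [h.norm_map, one_mul]

theorem rho_inv_mul (ρ : Γ →* (K →L[ℂ] K)) (γ : Γ) : ρ γ⁻¹ * ρ γ = 1 := by
  rw [← map_mul, inv_mul_cancel, map_one]

theorem rho_mul_inv (ρ : Γ →* (K →L[ℂ] K)) (γ : Γ) : ρ γ * ρ γ⁻¹ = 1 := by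
  rw [← map_mul, mul_inv_cancel, map_one]

namespace Fd

theorem continuous (hb : Fd ι ρ b) : Continuous b := by
  rw [continuous_iff_continuousAt]
  intro x
  refine Metric.tendsto_nhds.2 fun ε hε => ?_
  obtain ⟨U, hU, h1⟩ := hb.rcont (ε / 2) (by positivity)
  have h2 : Tendsto (fun y : G => x⁻¹ * y) (𝓝 x) (𝓝 1) := by
    have h3 : Continuous fun y : G => x⁻¹ * y := by fun_prop
    have h4 := h3.tendsto x
    simpa using h4
  filter_upwards [h2 hU] with y hy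
  have h3 := h1 _ hy x
  rw [mul_inv_cancel_left] at h3
  rw [dist_eq_norm]
  linarith

theorem continuous_apply (hb : Fd ι ρ b) (u : K) : Continuous fun x => b x u :=
  hb.continuous.clm_apply continuous_const

theorem exists_bdd (hb : Fd ι ρ b) : ∃ C, 0 < C ∧ ∀ x, ‖b x‖ ≤ C := by
  obtain ⟨C, hC⟩ := hb.bdd
  exact ⟨max C 1, lt_max_of_lt_right one_pos, fun x => (hC x).trans (le_max_left _ _)⟩

theorem zero : Fd ι ρ (fun _ => (0 : K →L[ℂ] K)) where
  equiv := fun γ x => by rw [mul_zero, zero_mul]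
  bdd := ⟨0, fun x => by rw [norm_zero]⟩
  rcont := fun ε hε => ⟨Set.univ, univ_mem, fun y _ x => by rw [sub_zero, norm_zero]; exact hε.le⟩

theorem const (h : TRep ρ ω) {m : K →L[ℂ] K} (hm : Cmm ρ m) : Fd ι ρ (fun _ => m) where
  equiv := fun γ x => by rw [← hm γ, mul_assoc, rho_mul_inv, mul_one]
  bdd := ⟨‖m‖, fun x => le_rfl⟩
  rcont := fun ε hε => ⟨Set.univ, univ_mem, fun y _ x => by rw [sub_self, norm_zero]; exact hε.le⟩

theorem add (ha : Fd ι ρ a) (hb : Fd ι ρ b) : Fd ι ρ (fun x => a x + b x) where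
  equiv := fun γ x => by rw [ha.equiv, hb.equiv, mul_add, add_mul]
  bdd := by
    obtain ⟨C, hC⟩ := ha.bdd
    obtain ⟨D, hD⟩ := hb.bdd
    exact ⟨C + D, fun x => (norm_add_le _ _).trans (add_le_add (hC x) (hD x))⟩
  rcont := fun ε hε => by
    obtain ⟨U, hU, h1⟩ := ha.rcont (ε / 2) (by positivity)
    obtain ⟨W, hW, h2⟩ := hb.rcont (ε / 2) (by positivity)
    refine ⟨U ∩ W, inter_mem hU hW, fun y hy x => ?_⟩
    have e : a (x * y) + b (x * y) - (a x + b x) = (a (x * y) - a x) + (b (x * y) - b x) := by abel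
    rw [e]
    refine (norm_add_le _ _).trans ?_
    linarith [h1 y hy.1 x, h2 y hy.2 x]

theorem smul (c : ℂ) (hb : Fd ι ρ b) : Fd ι ρ (fun x => c • b x) where
  equiv := fun γ x => by rw [hb.equiv, mul_smul_comm, smul_mul_assoc]
  bdd := by
    obtain ⟨D, hD⟩ := hb.bdd
    exact ⟨‖c‖ * D, fun x => by rw [norm_smul]; gcongr; exact hD x⟩
  rcont := fun ε hε => by
    obtain ⟨W, hW, h2⟩ := hb.rcont (ε / (‖c‖ + 1)) (by positivity)
    refine ⟨W, hW, fun y hy x => ?_⟩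
    rw [← smul_sub, norm_smul]
    calc ‖c‖ * ‖b (x * y) - b x‖ ≤ (‖c‖ + 1) * (ε / (‖c‖ + 1)) := by
          gcongr
          · linarith
          · exact h2 y hy x
      _ = ε := by field_simp

theorem neg (hb : Fd ι ρ b) : Fd ι ρ (fun x => - b x) := by
  have h := hb.smul (-1)
  simpa using h

theorem sub (ha : Fd ι ρ a) (hb : Fd ι ρ b) : Fd ι ρ (fun x => a x - b x) := by
  have h := ha.add hb.neg
  simpa [sub_eq_add_neg] using h

theorem mul (ha : Fd ι ρ a) (hb : Fd ι ρ b) : Fd ι ρ (fun x => a x * b x) where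
  equiv := fun γ x => by
    rw [ha.equiv, hb.equiv]
    calc ρ γ * a x * ρ γ⁻¹ * (ρ γ * b x * ρ γ⁻¹)
        = ρ γ * a x * (ρ γ⁻¹ * ρ γ) * b x * ρ γ⁻¹ := by simp only [mul_assoc]
      _ = _ := by rw [rho_inv_mul, mul_one]; simp only [mul_assoc]
  bdd := by
    obtain ⟨C, hC0, hC⟩ := ha.exists_bdd
    obtain ⟨D, hD⟩ := hb.bdd
    refine ⟨C * D, fun x => (norm_mul_le _ _).trans ?_⟩
    exact mul_le_mul (hC x) (hD x) (norm_nonneg _) hC0.le
  rcont := fun ε hε => by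
    obtain ⟨C, hC0, hC⟩ := ha.exists_bdd
    obtain ⟨D, hD0, hD⟩ := hb.exists_bdd
    obtain ⟨U, hU, h1⟩ := ha.rcont (ε / (2 * D)) (by positivity)
    obtain ⟨W, hW, h2⟩ := hb.rcont (ε / (2 * C)) (by positivity)
    refine ⟨U ∩ W, inter_mem hU hW, fun y hy x => ?_⟩
    have e : a (x * y) * b (x * y) - a x * b x =
        (a (x * y) - a x) * b (x * y) + a x * (b (x * y) - b x) := by
      rw [sub_mul, mul_sub]; abel
    rw [e]
    refine (norm_add_le _ _).trans ?_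
    have e1 : ‖(a (x * y) - a x) * b (x * y)‖ ≤ ε / 2 := by
      refine (norm_mul_le _ _).trans ?_
      calc ‖a (x * y) - a x‖ * ‖b (x * y)‖ ≤ ε / (2 * D) * D := by
            gcongr
            · exact h1 y hy.1 x
            · exact hD _
        _ = ε / 2 := by field_simp
    have e2 : ‖a x * (b (x * y) - b x)‖ ≤ ε / 2 := by
      refine (norm_mul_le _ _).trans ?_
      calc ‖a x‖ * ‖b (x * y) - b x‖ ≤ C * (ε / (2 * C)) := by
            gcongr
            · exact hC x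
            · exact h2 y hy.2 x
        _ = ε / 2 := by field_simp
    linarith

theorem adj (h : TRep ρ ω) (hb : Fd ι ρ b) : Fd ι ρ (fun x => adjoint (b x)) where
  equiv := fun γ x => by
    rw [hb.equiv]
    change star (ρ γ * b x * ρ γ⁻¹) = _
    rw [star_mul, star_mul, star_eq_adjoint (ρ γ⁻¹), h.adj, inv_inv, star_eq_adjoint (ρ γ), h.adj,
      star_eq_adjoint, mul_assoc]
  bdd := by
    obtain ⟨D, hD⟩ := hb.bdd
    exact ⟨D, fun x => by rw [LinearIsometryEquiv.norm_map]; exact hD x⟩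
  rcont := fun ε hε => by
    obtain ⟨W, hW, h2⟩ := hb.rcont ε hε
    refine ⟨W, hW, fun y hy x => ?_⟩
    rw [← map_sub, LinearIsometryEquiv.norm_map]
    exact h2 y hy x

/-- right translation -/
theorem rt (hb : Fd ι ρ b) (z : G) : Fd ι ρ (fun x => b (x * z)) where
  equiv := fun γ x => by rw [mul_assoc, hb.equiv]
  bdd := by
    obtain ⟨D, hD⟩ := hb.bdd
    exact ⟨D, fun x => hD _⟩
  rcont := fun ε hε => by
    obtain ⟨W, hW, h2⟩ := hb.rcont ε hε
    have h3 : Tendsto (fun y : G => z⁻¹ * y * z) (𝓝 1) (𝓝 1) := by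
      have h4 : Continuous fun y : G => z⁻¹ * y * z := by fun_prop
      have h5 := h4.tendsto 1
      simpa using h5
    refine ⟨_, h3 hW, fun y hy x => ?_⟩
    have e : x * y * z = (x * z) * (z⁻¹ * y * z) := by group
    rw [e]
    exact h2 _ hy _

/-- multiplication by an element of the commutant of `ρ` on the left -/
theorem lm (h : TRep ρ ω) (hb : Fd ι ρ b) {m : K →L[ℂ] K} (hm : Cmm ρ m) :
    Fd ι ρ (fun x => m * b x) := (Fd.const h hm).mul hb

/-- multiplication by an element of the commutant of `ρ` on the right -/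
theorem rm (h : TRep ρ ω) (hb : Fd ι ρ b) {m : K →L[ℂ] K} (hm : Cmm ρ m) :
    Fd ι ρ (fun x => b x * m) := hb.mul (Fd.const h hm)

theorem conj (h : Frm ρ V ω) (hb : Fd ι ρ b) (v : Λ) : Fd ι ρ (fun x => V v * b x * V v⁻¹) :=
  (hb.lm h.reg (h.comm v)).rm h.reg (h.comm v⁻¹)

end Fd

namespace ACont

theorem zero : ACont κ V (fun _ : G => (0 : K →L[ℂ] K)) := fun ε hε =>
  ⟨Set.univ, univ_mem, fun v _ x => by rw [mul_zero, zero_mul, sub_zero, norm_zero]; exact hε.le⟩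

theorem add (ha : ACont κ V a) (hb : ACont κ V b) : ACont κ V (fun x => a x + b x) := fun ε hε => by
  obtain ⟨U, hU, h1⟩ := ha (ε / 2) (by positivity)
  obtain ⟨W, hW, h2⟩ := hb (ε / 2) (by positivity)
  refine ⟨U ∩ W, inter_mem hU hW, fun v hv x => ?_⟩
  have e : V v * (a x + b x) * V v⁻¹ - (a x + b x) =
      (V v * a x * V v⁻¹ - a x) + (V v * b x * V v⁻¹ - b x) := by
    rw [mul_add, add_mul]; abel
  rw [e]
  refine (norm_add_le _ _).trans ?_
  linarith [h1 v hv.1 x, h2 v hv.2 x]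

theorem smul (c : ℂ) (hb : ACont κ V b) : ACont κ V (fun x => c • b x) := fun ε hε => by
  obtain ⟨W, hW, h2⟩ := hb (ε / (‖c‖ + 1)) (by positivity)
  refine ⟨W, hW, fun v hv x => ?_⟩
  rw [mul_smul_comm, smul_mul_assoc, ← smul_sub, norm_smul]
  calc ‖c‖ * ‖V v * b x * V v⁻¹ - b x‖ ≤ (‖c‖ + 1) * (ε / (‖c‖ + 1)) := by
        gcongr
        · linarith
        · exact h2 v hv x
    _ = ε := by field_simp

theorem neg (hb : ACont κ V b) : ACont κ V (fun x => - b x) := by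
  have h := ACont.smul (-1) hb
  simpa using h

theorem sub (ha : ACont κ V a) (hb : ACont κ V b) : ACont κ V (fun x => a x - b x) := by
  have h := ACont.add ha (ACont.neg hb)
  simpa [sub_eq_add_neg] using h

theorem mul (h : Frm ρ V ω) (ha : ACont κ V a) (hb : ACont κ V b) (ba : ∃ C, ∀ x, ‖a x‖ ≤ C)
    (bb : ∃ C, ∀ x, ‖b x‖ ≤ C) : ACont κ V (fun x => a x * b x) := fun ε hε => by
  obtain ⟨C, hC⟩ := ba
  obtain ⟨D, hD⟩ := bb
  set C' := max C 1 with hC'
  set D' := max D 1 with hD'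
  have hC0 : 0 < C' := lt_max_of_lt_right one_pos
  have hD0 : 0 < D' := lt_max_of_lt_right one_pos
  have hCC : ∀ x, ‖a x‖ ≤ C' := fun x => (hC x).trans (le_max_left _ _)
  have hDD : ∀ x, ‖b x‖ ≤ D' := fun x => (hD x).trans (le_max_left _ _)
  obtain ⟨U, hU, h1⟩ := ha (ε / (2 * D')) (by positivity)
  obtain ⟨W, hW, h2⟩ := hb (ε / (2 * C')) (by positivity)
  refine ⟨U ∩ W, inter_mem hU hW, fun v hv x => ?_⟩
  have e0 : V v * (a x * b x) * V v⁻¹ = (V v * a x * V v⁻¹) * (V v * b x * V v⁻¹) := by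
    calc V v * (a x * b x) * V v⁻¹ = V v * a x * 1 * b x * V v⁻¹ := by
          rw [mul_one]; simp only [mul_assoc]
      _ = V v * a x * (V v⁻¹ * V v) * b x * V v⁻¹ := by rw [h.inv_mul]
      _ = _ := by simp only [mul_assoc]
  have e : V v * (a x * b x) * V v⁻¹ - a x * b x =
      (V v * a x * V v⁻¹ - a x) * (V v * b x * V v⁻¹) + a x * (V v * b x * V v⁻¹ - b x) := by
    rw [e0, sub_mul, mul_sub]; abel
  rw [e]
  refine (norm_add_le _ _).trans ?_
  have e3 : ‖V v * b x * V v⁻¹‖ ≤ D' := by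
    calc ‖V v * b x * V v⁻¹‖ ≤ ‖V v‖ * ‖b x‖ * ‖V v⁻¹‖ :=
          (norm_mul_le _ _).trans (by gcongr; exact norm_mul_le _ _)
      _ ≤ 1 * D' * 1 := by
          gcongr
          · exact h.norm_le v
          · exact hDD x
          · exact h.norm_le _
      _ = D' := by ring
  have e1 : ‖(V v * a x * V v⁻¹ - a x) * (V v * b x * V v⁻¹)‖ ≤ ε / 2 := by
    refine (norm_mul_le _ _).trans ?_
    calc ‖V v * a x * V v⁻¹ - a x‖ * ‖V v * b x * V v⁻¹‖ ≤ ε / (2 * D') * D' := by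
          gcongr
          exact h1 v hv.1 x
      _ = ε / 2 := by field_simp
  have e2 : ‖a x * (V v * b x * V v⁻¹ - b x)‖ ≤ ε / 2 := by
    refine (norm_mul_le _ _).trans ?_
    calc ‖a x‖ * ‖V v * b x * V v⁻¹ - b x‖ ≤ C' * (ε / (2 * C')) := by
          gcongr
          · exact hCC x
          · exact h2 v hv.2 x
      _ = ε / 2 := by field_simp
  linarith

theorem adj (h : Frm ρ V ω) (hb : ACont κ V b) : ACont κ V (fun x => adjoint (b x)) :=
  fun ε hε => by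
  obtain ⟨W, hW, h2⟩ := hb ε hε
  refine ⟨W, hW, fun v hv x => ?_⟩
  have e : V v * adjoint (b x) * V v⁻¹ - adjoint (b x) =
      adjoint (V v * b x * V v⁻¹ - b x) := by
    rw [map_sub]
    congr 1
    change _ = star (V v * b x * V v⁻¹)
    rw [star_mul, star_mul, star_eq_adjoint (V v⁻¹), h.adj, inv_inv, star_eq_adjoint (V v), h.adj,
      star_eq_adjoint, mul_assoc]
  rw [e, LinearIsometryEquiv.norm_map]
  exact h2 v hv x

theorem rt (hb : ACont κ V b) (z : G) : ACont κ V (fun x => b (x * z)) := fun ε hε => by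
  obtain ⟨W, hW, h2⟩ := hb ε hε
  exact ⟨W, hW, fun v hv x => h2 v hv _⟩

theorem conj (h : Frm ρ V ω) (hb : ACont κ V b) (w : Λ) :
    ACont κ V (fun x => V w * b x * V w⁻¹) := fun ε hε => by
  obtain ⟨W, hW, h2⟩ := hb ε hε
  have h3 : Tendsto (fun y : H => (κ w)⁻¹ * y * κ w) (𝓝 1) (𝓝 1) := by
    have h4 : Continuous fun y : H => (κ w)⁻¹ * y * κ w := by fun_prop
    have h5 := h4.tendsto 1
    simpa using h5
  refine ⟨_, h3 hW, fun v hv x => ?_⟩
  have hv' : κ (w⁻¹ * v * w) ∈ W := by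
    rw [map_mul, map_mul, map_inv]; exact hv
  have h6 := h2 _ hv' x
  have e : V v * (V w * b x * V w⁻¹) * V v⁻¹ - V w * b x * V w⁻¹ =
      V w * (V (w⁻¹ * v * w) * b x * V (w⁻¹ * v * w)⁻¹ - b x) * V w⁻¹ := by
    have e1 : V v * V w = V w * V (w⁻¹ * v * w) := by
      rw [← map_mul, ← map_mul]; congr 1; group
    have e2 : V w⁻¹ * V v⁻¹ = V (w⁻¹ * v * w)⁻¹ * V w⁻¹ := by
      rw [← map_mul, ← map_mul]; congr 1; group
    calc V v * (V w * b x * V w⁻¹) * V v⁻¹ - V w * b x * V w⁻¹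
        = (V v * V w) * b x * (V w⁻¹ * V v⁻¹) - V w * b x * V w⁻¹ := by simp only [mul_assoc]
      _ = _ := by rw [e1, e2, mul_sub, sub_mul]; simp only [mul_assoc]
  rw [e]
  calc ‖V w * (V (w⁻¹ * v * w) * b x * V (w⁻¹ * v * w)⁻¹ - b x) * V w⁻¹‖
      ≤ ‖V w‖ * ‖V (w⁻¹ * v * w) * b x * V (w⁻¹ * v * w)⁻¹ - b x‖ * ‖V w⁻¹‖ :=
        (norm_mul_le _ _).trans (by gcongr; exact norm_mul_le _ _)
    _ ≤ 1 * ε * 1 := by
        gcongr
        · exact h.norm_le w
        · exact h.norm_le _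
    _ = ε := by ring

end ACont

end field

end Vale.Agent.P092.QT.H156.Sm
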